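import Vale.Agent.P161T11.Tree
import Vale.Agent.P161.H391.Super

/-!
# P161: the construction from a root gives the measure with the finite-subtree formula
-/

open MeasureTheory

namespace Vale.Agent.P161T11

open SimpleGraph Vale.Agent.P161 Vale.Agent.P161.Exist

variable {V : Type*} {G : SimpleGraph V}

theorem coin_eq (t : ℝ) : coin ((1 + t) / 2) = bern t := by
  rw [coin, bern, show 1 - (1 + t) / 2 = (1 - t) / 2 by ring]

theorem unit_iff {a b c : ℤˣ} : (a = b ↔ c = 1) ↔ a = b * c := by
  rcases Int.units_eq_one_or a with rfl | rfl <;> rcases Int.units_eq_one_or b with rfl | rfl <;>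
    rcases Int.units_eq_one_or c with rfl | rfl <;> decide

theorem exists_built (hG : G.IsTree) (θ : ℝ) (o : V) : ∃ μ, IsBuiltFrom G θ o μ := by
  classical
  choose! p hp hd using fun v (h : v ≠ o) => par_exists hG h
  obtain ⟨f, f0, f1⟩ : ∃ f : ℕ → V → (V → ℤˣ) → ℤˣ, (∀ v ω, f 0 v ω = ω o) ∧
      ∀ n v ω, f (n + 1) v ω = f n (p v) ω * ω v :=
    ⟨fun n => n.rec (fun _ ω => ω o) fun _ x v ω => x (p v) ω * ω v, fun _ _ => rfl,
      fun _ _ _ => rfl⟩
  have m : ∀ n v, Measurable (f n v) := fun n => by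
    induction n with
    | zero => intro v; rw [funext (f0 v)]; exact measurable_pi_apply o
    | succ n ih => intro v; rw [funext (f1 n v)]; exact (ih _).mul (measurable_pi_apply v)
  refine ⟨_, fun ω v => f (G.dist o v) v ω, measurable_pi_iff.2 fun v => m _ v,
    fun ω => by simp only [dist_self, f0], fun ω u v h e => unit_iff.2 ?_, rfl⟩
  have n : v ≠ o := by rintro rfl; simp at e
  beta_reduce
  rw [e, f1, par_unique hG (hp v n) h (hd v n) e]

theorem free_of_built (hG : G.IsTree) {θ : ℝ} (h0 : -1 ≤ θ) (h1 : θ ≤ 1) {o : V}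
    {μ : Measure (V → ℤˣ)} (h : IsBuiltFrom G θ o μ) : IsFreeIsing G θ μ := by
  classical
  obtain ⟨F, hF, Fo, Fe, rfl⟩ := h
  replace Fe := fun ω u v a b => unit_iff.1 (Fe ω u v a b)
  choose! p hp hd using fun v (h : v ≠ o) => par_exists hG h
  rw [coin_eq, show (1 / 2 : ℝ) = (1 + 0) / 2 by norm_num, coin_eq]
  obtain ⟨w, hw⟩ : ∃ w : V → Measure ℤˣ, w = fun v => if v = o then bern 0 else bern θ := ⟨_, rfl⟩
  have : ∀ v, IsProbabilityMeasure (w v) := fun v => by
    simp only [hw]
    split_ifs
    exacts [bern_isProb (by norm_num) (by norm_num), bern_isProb h0 h1]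
  rw [show (fun v => @ite _ (v = o) (Classical.propDecidable _) (bern 0) (bern θ)) = w by
    rw [hw]]
  refine ⟨Measure.isProbabilityMeasure_map hF.aemeasurable, fun D hD η => ?_⟩
  let s : V → ℤˣ → ℤˣ := fun v x => if v = o then -x else x
  have hT : (Measure.infinitePi w).map (fun ω v => s v (ω v)) = Measure.infinitePi w := by
    rw [Measure.infinitePi_map_pi w fun v => measurable_of_countable (s v)]
    congr 1
    funext v
    by_cases e : v = o
    · simpa only [s, hw, e, if_true] using bern_zero_neg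
    · simp [s, e]
  have fl : ∀ ω n v, G.dist o v = n → F (fun v => s v (ω v)) v = -F ω v := fun ω n => by
    induction n with
    | zero => intro v k; rw [← (hG.connected.dist_eq_zero_iff).1 k, Fo, Fo]; simp [s]
    | succ n ih =>
      intro v k
      have e : v ≠ o := by rintro rfl; simp at k
      rw [Fe _ _ v (hp v e) (hd v e), Fe ω _ v (hp v e) (hd v e), ih _ (by have := hd v e; omega)]
      simp [s, e]
  let E : (V → ℤˣ) → Set (V → ℤˣ) := fun η => F ⁻¹' {σ | ∀ v ∈ D, σ v = η v}
  have ms : ∀ η : V → ℤˣ, MeasurableSet {σ : V → ℤˣ | ∀ v ∈ D, σ v = η v} := fun η =>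
    MeasurableSet.pi (s := (D : Set V)) (t := fun v => {η v}) D.countable_toSet
      fun _ _ => .of_discrete
  let C := D.filter fun v => v ≠ o ∧ p v ∈ D
  have hU : Set.pi C (fun v => {η (p v) * η v}) = E η ∪ E (-η) := by
    ext ω
    have : ω ∈ Set.pi C (fun v => {η (p v) * η v}) ↔
        ∀ u ∈ D, ∀ v ∈ D, G.Adj u v → F ω u * η u = F ω v * η v := by
      have k : ∀ v, v ≠ o → (ω v = η (p v) * η v ↔ F ω (p v) * η (p v) = F ω v * η v) := by
        intro v e
        rw [Fe ω _ v (hp v e) (hd v e), mul_assoc, mul_right_inj]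
        rcases Int.units_eq_one_or (η v) with a | a <;>
          rcases Int.units_eq_one_or (η (p v)) with b | b <;>
          rcases Int.units_eq_one_or (ω v) with c | c <;> rw [a, b, c] <;> decide
      refine ⟨fun h => ?_, fun h v hv => ?_⟩
      · have : ∀ u ∈ D, ∀ v ∈ D, G.Adj u v → G.dist o v = G.dist o u + 1 →
            F ω u * η u = F ω v * η v := fun u hu v hv a b => by
          have e : v ≠ o := by rintro rfl; simp at b
          obtain rfl := par_unique hG (hp v e) a (hd v e) b
          exact (k v e).1 (h v (by simp [C, hv, e, hu]))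
        intro u hu v hv a
        rcases hG.dist_eq_dist_add_one_of_adj o a with b | b
        exacts [(this v hv u hu a.symm b).symm, this u hu v hv a b]
      · obtain ⟨a, b, c⟩ := Finset.mem_filter.1 hv
        exact (k v b).2 (h _ c v a (hp v b))
    rw [this]
    refine ⟨fun h => ?_, ?_⟩
    · obtain ⟨⟨x, hx⟩⟩ := hD.nonempty
      have hc := fun v hv => const_of_adj hD (fun v => F ω v * η v) h v hv x hx
      refine (Int.units_eq_one_or (F ω x * η x)).imp (fun e v hv => ?_) fun e v hv => ?_
      · rw [← mul_left_inj (η v), hc v hv, e, Int.units_mul_self]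
      · rw [← mul_left_inj (η v), hc v hv, e, Pi.neg_apply, neg_mul, Int.units_mul_self]
    · rintro (h | h) u hu v hv - <;> rw [h u hu, h v hv] <;> simp
  have hD' : Disjoint (E η) (E (-η)) := Set.disjoint_left.2 fun ω a b => by
    obtain ⟨⟨x, hx⟩⟩ := hD.nonempty
    exact units_ne_neg_self (η x) ((a x hx).symm.trans (b x hx))
  have hfl : Measure.infinitePi w (E (-η)) = Measure.infinitePi w (E η) := by
    conv_rhs => rw [← hT]
    have : Measurable fun (ω : V → ℤˣ) v => s v (ω v) := measurable_pi_iff.2 fun v =>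
      (measurable_of_countable (s v)).comp (measurable_pi_apply v)
    rw [Measure.map_apply this (hF (ms η))]
    congr 1
    ext ω
    simp only [E, Set.mem_preimage, Set.mem_ofPred_eq, fl ω _ _ rfl, Pi.neg_apply,
      neg_eq_iff_eq_neg]
  have hP := Measure.infinitePi_pi w (s := C) (t := fun v => {η (p v) * η v})
    fun _ _ => .of_discrete
  rw [hU, measure_union hD' (hF (ms _)), hfl, ← two_mul] at hP
  have nn : ∀ x : ℤˣ, 0 ≤ (1 + θ * ((x : ℤ) : ℝ)) / 2 := fun x => by
    rcases Int.units_eq_one_or x with rfl | rfl <;> simp <;> linarith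
  rw [Measure.map_apply hF (ms η), ENNReal.ofReal_mul (by norm_num),
    ENNReal.ofReal_prod_of_nonneg fun e _ => nn _, one_div, ENNReal.ofReal_inv_of_pos two_pos,
    ENNReal.ofReal_ofNat, ← ENNReal.div_eq_inv_mul, ENNReal.eq_div_iff two_ne_zero
      ENNReal.ofNat_ne_top]
  refine hP.trans (Finset.prod_nbij (fun v => s(p v, v)) (fun v hv => ?_) (fun u hu v hv e => ?_)
    (fun e he => ?_) fun v hv => ?_)
  · obtain ⟨a, b, c⟩ := Finset.mem_filter.1 hv
    simp [a, c, hp v b]
  · have a := hd u (Finset.mem_filter.1 hu).2.1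
    have b := hd v (Finset.mem_filter.1 hv).2.1
    rcases Sym2.eq_iff.1 e with e | e
    · exact e.2
    · rw [e.1] at a; rw [← e.2] at b; omega
  · induction e using Sym2.ind with
    | _ u v =>
    simp only [Finset.coe_filter, Finset.mk_mem_sym2_iff, mem_edgeSet, Set.mem_ofPred_eq] at he
    have : ∀ u ∈ D, ∀ v ∈ D, G.Adj u v → G.dist o v = G.dist o u + 1 → v ∈ C ∧ p v = u :=
      fun u hu v hv a b => by
        have e : v ≠ o := by rintro rfl; simp at b
        obtain rfl := par_unique hG (hp v e) a (hd v e) b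
        exact ⟨by simp [C, hv, e, hu], rfl⟩
    rcases hG.dist_eq_dist_add_one_of_adj o he.2 with b | b
    · obtain ⟨x, y⟩ := this v he.1.2 u he.1.1 he.2.symm b
      exact ⟨u, x, by simp only [y, Sym2.eq_swap]⟩
    · obtain ⟨x, y⟩ := this u he.1.1 v he.1.2 he.2 b
      exact ⟨v, x, by simp only [y]⟩
  · simp only [hw, if_neg (Finset.mem_filter.1 hv).2.1, bern_singleton]
    rfl

end Vale.Agent.P161T11
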