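import Vale.Agent.P161.Defs

/-!
# P161: the tree `T_d` and the construction of the free Ising measure from a root
-/

open MeasureTheory

namespace Vale.Agent.P161T11

/-- the words in `d` letters in which no two consecutive letters are equal -/
abbrev Word (d : ℕ) : Type := {l : List (Fin d) // l.IsChain (· ≠ ·)}

/-- `T_d`: the word `w` is joined to the words `a :: w` -/
def T (d : ℕ) : SimpleGraph (Word d) := SimpleGraph.fromRel fun u v => ∃ a, v.1 = a :: u.1

/-- a random sign which is `+1` with probability `p` -/
noncomputable def coin (p : ℝ) : Measure ℤˣ :=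
  ENNReal.ofReal p • Measure.dirac 1 + ENNReal.ofReal (1 - p) • Measure.dirac (-1)

open Classical in
/-- `μ` is the law of the spins `F ω` built from independent signs `ω v`: the spin at the starting
vertex `o` is the uniform sign `ω o`, and along each edge directed away from `o` the child `v` agrees
with its parent `u` exactly when `ω v = +1`, which has probability `(1 + θ) / 2`. -/
def IsBuiltFrom {V : Type*} (G : SimpleGraph V) (θ : ℝ) (o : V) (μ : Measure (V → ℤˣ)) : Prop :=
  ∃ F : (V → ℤˣ) → (V → ℤˣ), Measurable F ∧ (∀ ω, F ω o = ω o) ∧
    (∀ ω u v, G.Adj u v → G.dist o v = G.dist o u + 1 → (F ω v = F ω u ↔ ω v = 1)) ∧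
    μ = Measure.map F
      (Measure.infinitePi fun v => if v = o then coin (1 / 2) else coin ((1 + θ) / 2))

end Vale.Agent.P161T11
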