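import Vale.Agent.P161T11.Cast

/-!
# P161 on the tree `T_d`: assembly
-/

open MeasureTheory

namespace Vale.Agent.P161T11

open SimpleGraph Vale.Agent.P161

theorem threshold {V : Type*} (G : SimpleGraph V) [G.LocallyFinite] (hG : G.IsTree) (d : ℕ)
    (hd : 3 ≤ d) (hreg : G.IsRegularOfDegree d) {t : ℝ} (h1 : |t| < 1) (μ : Measure (V → ℤˣ))
    (hμ : IsFreeIsing G t μ) : IsFactorOfIID G μ ↔ |t| ≤ ((d : ℝ) - 1) ^ (-(1 / 2) : ℝ) := by
  have hd1 : (0 : ℝ) < (d : ℝ) - 1 := by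
    have : (3 : ℝ) ≤ d := by exact_mod_cast hd
    linarith
  have h0 : 0 ≤ |t| := abs_nonneg _
  have hc : IsFreeIsing G |t| μ ∨ IsFreeIsing G (-|t|) μ := by
    rcases abs_cases t with ⟨h, -⟩ | ⟨h, -⟩
    · left; rwa [h]
    · right; rwa [h, neg_neg]
  have e : |t| ≤ ((d : ℝ) - 1) ^ (-(1 / 2) : ℝ) ↔ ((d : ℝ) - 1) * |t| ^ 2 ≤ 1 := by
    rw [Real.rpow_neg hd1.le, ← Real.sqrt_eq_rpow, ← Real.sqrt_inv, Real.le_sqrt h0 (by positivity),
      ← one_div, le_div_iff₀ hd1, mul_comm]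
  rw [e]
  generalize |t| = θ at *
  rcases lt_trichotomy (((d : ℝ) - 1) * θ ^ 2) 1 with h | h | h
  · exact iff_of_true (hc.elim (factor_of_iid_of_subcritical hG (by omega) hreg h0 h h1)
      (H391.anti_subcritical hG (by omega) hreg h0 h h1)) h.le
  · have : 0 < θ := h0.lt_of_ne (by rintro rfl; simp at h)
    exact iff_of_true (hc.elim (factor_of_iid_of_critical hG hd hreg this h)
      (H391.anti_critical hG hd hreg this h)) h.le
  · exact iff_of_false (hc.elim (not_factor_of_supercritical hG (by omega) hreg h0 h1 h)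
      (H391.not_factor_anti hG (by omega) hreg h0 h1 h)) h.not_ge

theorem free_map {V : Type*} {G : SimpleGraph V} {θ : ℝ} {o : V} {μ : Measure (V → ℤˣ)}
    (h : IsBuiltFrom G θ o μ) (hθ : |θ| ≤ 1) (g : G ≃g G) :
    IsBuiltFrom G θ (g o) (μ.map fun σ v => σ (g.symm v)) := by
  classical
  obtain ⟨F, hF, Fo, Fe, rfl⟩ := h
  have m : ∀ e : V → V, Measurable fun (σ : V → ℤˣ) v => σ (e v) := fun e =>
    measurable_pi_iff.2 fun v => measurable_pi_apply _
  have di : ∀ v, G.dist (g o) v = G.dist o (g.symm v) := fun v => by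
    have k : ∀ (g : G ≃g G) a b, G.edist (g a) (g b) ≤ G.edist a b := fun g a b => by
      refine le_iInf fun p => ?_
      simpa using edist_le (p.map g.toHom)
    have := le_antisymm (k g o (g.symm v)) (by simpa using k g.symm (g o) (g (g.symm v)))
    rw [SimpleGraph.dist, SimpleGraph.dist, ← this, g.apply_symm_apply]
  refine ⟨fun ω v => F (fun x => ω (g x)) (g.symm v), (m _).comp (hF.comp (m g)),
    fun ω => by simp [Fo], fun ω u v a b => ?_, ?_⟩
  · rw [di, di] at b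
    simpa using Fe (fun x => ω (g x)) _ _ (g.symm.map_adj_iff.2 a) b
  have pr : ∀ (o v : V), IsProbabilityMeasure (@ite _ (v = o) (Classical.propDecidable _)
      (coin (1 / 2)) (coin ((1 + θ) / 2))) := fun o v => by
    rw [coin_eq, show (1 / 2 : ℝ) = (1 + 0) / 2 by norm_num, coin_eq]
    split_ifs
    exacts [Exist.bern_isProb (by norm_num) (by norm_num),
      Exist.bern_isProb (abs_le.1 hθ).1 (abs_le.1 hθ).2]
  have := Measure.infinitePi_map_piCongrLeft (fun v => @ite _ (v = o) (Classical.propDecidable _)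
    (coin (1 / 2)) (coin ((1 + θ) / 2))) g.symm.toEquiv
  rw [← this, Measure.map_map hF (MeasurableEquiv.measurable _),
    Measure.map_map (m _) (hF.comp (MeasurableEquiv.measurable _))]
  congr 1
  · funext ω v
    simp only [Function.comp]
    congr 1
    funext x
    simp only [MeasurableEquiv.coe_piCongrLeft, Equiv.piCongrLeft_apply_eq_cast, cast_eq]
    rfl
  · congr 1
    funext v
    congr 1
    exact propext g.toEquiv.symm_apply_eq

theorem main (d : ℕ) (hd : 3 ≤ d) {V : Type*} (G : SimpleGraph V) (hG : G.IsTree)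
    (hr : ∀ v, (G.neighborSet v).ncard = d) : ∃ μ : ℝ → Measure (V → ℤˣ),
    (∀ β o ν, IsBuiltFrom G (Real.tanh β) o ν ↔ ν = μ β) ∧
    (∀ β ν, IsFreeIsing G (Real.tanh β) ν ↔ ν = μ β) ∧
    (∀ β (g : G ≃g G), (μ β).map (fun σ v => σ (g.symm v)) = μ β) ∧
    {β : ℝ | 0 ≤ β ∧ IsFactorOfIID G (μ β)} =
      {β : ℝ | 0 ≤ β ∧ Real.tanh β ≤ ((d : ℝ) - 1) ^ (-(1 / 2) : ℝ)} ∧
    ∀ β, IsFactorOfIID G (μ β) ↔ |Real.tanh β| ≤ ((d : ℝ) - 1) ^ (-(1 / 2) : ℝ) := by
  have lf : G.LocallyFinite := fun v => (Set.finite_of_ncard_pos (by rw [hr]; omega)).fintype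
  have reg : G.IsRegularOfDegree d := fun v => by
    rw [← card_neighborSet_eq_degree, ← Nat.card_eq_fintype_card]; exact hr v
  have a := fun β => Real.abs_tanh_lt_one β
  have fr : ∀ β o ν, IsBuiltFrom G (Real.tanh β) o ν → IsFreeIsing G (Real.tanh β) ν :=
    fun β o ν => free_of_built hG (abs_lt.1 (a β)).1.le (abs_lt.1 (a β)).2.le
  obtain ⟨r⟩ := hG.connected.nonempty
  choose μ hμ using fun β => exists_built hG (Real.tanh β) r
  have h2 : ∀ β ν, IsFreeIsing G (Real.tanh β) ν ↔ ν = μ β := fun β ν =>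
    ⟨fun h => H391.isFreeIsing_unique hG h (fr _ _ _ (hμ β)), fun h => h ▸ fr _ _ _ (hμ β)⟩
  have h5 := fun β => threshold G hG d hd reg (a β) _ (fr _ _ _ (hμ β))
  refine ⟨μ, fun β o ν => ⟨fun h => (h2 β ν).1 (fr _ _ _ h), fun h => ?_⟩, h2,
    fun β g => (h2 β _).1 (fr _ _ _ (free_map (hμ β) (a β).le g)),
    Set.ext fun β => and_congr_right fun h => ?_, h5⟩
  · obtain ⟨ν', k⟩ := exists_built hG (Real.tanh β) o
    rwa [h, ← (h2 β ν').1 (fr _ _ _ k)]
  · rw [h5, abs_of_nonneg]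
    rw [Real.tanh_eq_sinh_div_cosh]
    exact div_nonneg (Real.sinh_nonneg_iff.2 h) (Real.cosh_pos β).le

end Vale.Agent.P161T11
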