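import Vale.Agent.P161T11.Defs

/-!
# P161: `T_d` is a `d`-regular tree and the only one
-/

namespace Vale.Agent.P161T11

open SimpleGraph

variable {d : ℕ}

theorem adj_iff {u v : Word d} : (T d).Adj u v ↔ (∃ a, v.1 = a :: u.1) ∨ ∃ a, u.1 = a :: v.1 := by
  rw [T, fromRel_adj, and_iff_right_iff_imp]
  rintro (⟨a, h⟩ | ⟨a, h⟩) rfl <;> exact absurd (congrArg List.length h) (by simp)

/-- the empty word -/
def nil (d : ℕ) : Word d := ⟨[], .nil⟩

/-- the tail of a word -/
def tl (w : Word d) : Word d := ⟨w.1.tail, w.2.tail⟩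

theorem chain_cons {a : Fin d} {w : Word d} (h : w.1.head? ≠ some a) :
    (a :: w.1).IsChain (· ≠ ·) :=
  w.2.cons fun b hb e => h (by rw [e]; exact hb)

theorem isTree : (T d).IsTree := by
  refine ⟨?_, isAcyclic_iff_forall_isBridge.2 ?_⟩
  · have : ∀ (l : List (Fin d)) (h), (T d).Reachable (nil d) ⟨l, h⟩ := fun l => by
      induction l with
      | nil => exact fun _ => .rfl
      | cons a l ih => exact fun h => (ih h.tail).trans (adj_iff.2 (.inl ⟨a, rfl⟩)).reachable
    have n : Nonempty (Word d) := ⟨nil d⟩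
    exact ⟨fun u v => (this u.1 u.2).symm.trans (this v.1 v.2)⟩
  have key : ∀ (u v : Word d) a, v.1 = a :: u.1 → (T d).IsBridge s(u, v) := fun u v a h => by
    rw [isBridge_iff]
    rintro ⟨p⟩
    have st : ∀ x y : Word d, (∃ b, y.1 = b :: x.1) → s(x, y) ≠ s(u, v) →
        (v.1 <:+ x.1 ↔ v.1 <:+ y.1) := by
      rintro x y ⟨b, k⟩ n
      rw [k, List.suffix_cons_iff, or_iff_right]
      intro e
      obtain rfl : v = y := Subtype.ext (e.trans k.symm)
      obtain rfl : u = x := Subtype.ext (List.cons.inj (h.symm.trans e)).2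
      exact n rfl
    have : ∀ x y (p : ((T d).deleteEdges {s(u, v)}).Walk x y), v.1 <:+ x.1 ↔ v.1 <:+ y.1 := by
      intro x y p
      induction p with
      | nil => rfl
      | @cons x y z e p ih =>
        rw [deleteEdges_adj, Set.mem_singleton_iff] at e
        refine Iff.trans ?_ ih
        rcases adj_iff.1 e.1 with k | k
        · exact st x y k e.2
        · exact (st y x k (by rw [Sym2.eq_swap]; exact e.2)).symm
    have := ((this u v p).2 List.suffix_rfl).length_le
    rw [h, List.length_cons] at this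
    omega
  intro e
  induction e using Sym2.ind with
  | _ u v =>
  intro h
  rcases adj_iff.1 h with ⟨a, k⟩ | ⟨a, k⟩
  · exact key u v a k
  · rw [Sym2.eq_swap]; exact key v u a k

theorem ncard_nb (w : Word d) : ((T d).neighborSet w).ncard = d := by
  classical
  obtain ⟨f, f1, f2⟩ : ∃ f : Fin d → Word d, (∀ a, w.1.head? = some a → (f a).1 = w.1.tail) ∧
      ∀ a, w.1.head? ≠ some a → (f a).1 = a :: w.1 :=
    ⟨fun a => if h : w.1.head? = some a then tl w else ⟨_, chain_cons h⟩,
      fun a h => by beta_reduce; rw [dif_pos h]; rfl, fun a h => by beta_reduce; rw [dif_neg h]⟩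
  have e : (T d).neighborSet w = Set.range f := by
    ext v
    rw [mem_neighborSet, adj_iff]
    constructor
    · rintro (⟨a, h⟩ | ⟨a, h⟩)
      · have n : w.1.head? ≠ some a := fun k => by
          have := v.2
          rw [h] at this
          exact this.rel_head? k rfl
        exact ⟨a, Subtype.ext (by rw [f2 a n, h])⟩
      · exact ⟨a, Subtype.ext (by rw [f1 a (by rw [h]; rfl), h]; rfl)⟩
    · rintro ⟨a, rfl⟩
      by_cases h : w.1.head? = some a
      · exact .inr ⟨a, by rw [f1 a h]; exact (List.cons_head?_tail h).symm⟩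
      · exact .inl ⟨a, f2 a h⟩
  have i : Function.Injective f := fun a b k => by
    have k' : (f a).1 = (f b).1 := by rw [k]
    have l := congrArg List.length k'
    by_cases ha : w.1.head? = some a <;> by_cases hb : w.1.head? = some b
    · exact Option.some.inj (ha.symm.trans hb)
    · rw [f1 a ha, f2 b hb, List.length_tail, List.length_cons] at l; omega
    · rw [f2 a ha, f1 b hb, List.length_tail, List.length_cons] at l; omega
    · rw [f2 a ha, f2 b hb] at k'; exact (List.cons.inj k').1
  rw [e, Set.ncard_range_of_injective i, Nat.card_eq_fintype_card, Fintype.card_fin]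

theorem infinite_word (hd : 2 ≤ d) : Infinite (Word d) := by
  have : ∀ n, ∃ w : Word d, w.1.length = n := fun n => by
    induction n with
    | zero => exact ⟨nil d, rfl⟩
    | succ n ih =>
      obtain ⟨w, hw⟩ := ih
      obtain ⟨a, ha⟩ : ∃ a : Fin d, w.1.head? ≠ some a := by
        by_contra! k
        have := (k ⟨0, by omega⟩).symm.trans (k ⟨1, by omega⟩)
        simp at this
      exact ⟨⟨_, chain_cons ha⟩, by simp [hw]⟩
  exact Infinite.of_surjective (fun w : Word d => w.1.length) this

variable {V : Type*} {G : SimpleGraph V}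

theorem par_unique (hG : G.IsTree) {o u u' v : V} (h : G.Adj u v) (h' : G.Adj u' v)
    (e : G.dist o v = G.dist o u + 1) (e' : G.dist o v = G.dist o u' + 1) : u = u' := by
  obtain ⟨p, -, hp⟩ := hG.connected.exists_path_of_dist o u
  obtain ⟨p', -, hp'⟩ := hG.connected.exists_path_of_dist o u'
  have a : (p.concat h).IsPath := Walk.isPath_of_length_eq_dist _ (by rw [Walk.length_concat]; omega)
  have a' : (p'.concat h').IsPath :=
    Walk.isPath_of_length_eq_dist _ (by rw [Walk.length_concat]; omega)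
  have k : p.concat h = p'.concat h' :=
    congrArg Subtype.val ((hG.isAcyclic.subsingleton_path o v).elim ⟨_, a⟩ ⟨_, a'⟩)
  exact (Walk.concat_inj k).1

theorem par_exists (hG : G.IsTree) {o v : V} (h : v ≠ o) :
    ∃ u, G.Adj u v ∧ G.dist o v = G.dist o u + 1 := by
  obtain ⟨p, hp⟩ := hG.connected.exists_walk_length_eq_dist v o
  cases p with
  | nil => exact absurd rfl h
  | @cons _ u _ e p =>
    refine ⟨u, e.symm, ?_⟩
    have := dist_le p
    rw [Walk.length_cons, dist_comm] at hp
    rw [dist_comm] at this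
    rcases hG.dist_eq_dist_add_one_of_adj o e with k | k <;> omega

theorem iso_T (hG : G.IsTree) (hd : 0 < d) (h : ∀ v, (G.neighborSet v).ncard = d) :
    Nonempty (G ≃g T d) := by
  classical
  obtain ⟨o⟩ := hG.connected.nonempty
  have E : ∀ v (a : Fin d) (u : G.neighborSet v), ∃ e : Fin d ≃ G.neighborSet v, e a = u := by
    intro v a u
    have : Finite (G.neighborSet v) := Set.finite_of_ncard_pos (by rw [h]; exact hd)
    let e : Fin d ≃ G.neighborSet v := (Finite.equivFinOfCardEq (h v)).symm
    exact ⟨(Equiv.swap a (e.symm u)).trans e, by simp⟩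
  choose E hE using E
  obtain ⟨e0⟩ : Nonempty (Fin d ≃ G.neighborSet o) :=
    have : Finite (G.neighborSet o) := Set.finite_of_ncard_pos (by rw [h]; exact hd)
    ⟨(Finite.equivFinOfCardEq (h o)).symm⟩
  obtain ⟨ψ, h0, h1⟩ : ∃ ψ : List (Fin d) → Σ v : V, Fin d ≃ G.neighborSet v, ψ [] = ⟨o, e0⟩ ∧
      ∀ a w, ψ (a :: w) = ⟨(ψ w).2 a, E _ a ⟨(ψ w).1, ((ψ w).2 a).2.symm⟩⟩ :=
    ⟨fun l => l.rec ⟨o, e0⟩ fun a _ x => ⟨x.2 a, E _ a ⟨x.1, (x.2 a).2.symm⟩⟩, rfl, fun _ _ => rfl⟩
  have a1 : ∀ a w, (ψ (a :: w)).1 = (ψ w).2 a := fun a w => by rw [h1]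
  have a2 : ∀ a w, ((ψ (a :: w)).2 a : V) = (ψ w).1 := fun a w => by rw [h1]; simp only [hE]
  have ad : ∀ a w, G.Adj (ψ w).1 (ψ (a :: w)).1 := fun a w => by rw [a1]; exact ((ψ w).2 a).2
  have di : ∀ l : List (Fin d), l.IsChain (· ≠ ·) → G.dist o (ψ l).1 = l.length := by
    intro l
    induction l using List.twoStepInduction with
    | nil => intro _; rw [h0]; exact dist_self
    | singleton a =>
      intro _
      have := ad a []
      rw [h0] at this
      exact dist_eq_one_iff_adj.2 this
    | cons_cons a b w i1 i2 =>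
      intro c
      have j1 := i1 c.tail.tail
      have j2 := i2 b c.tail
      simp only [List.length_cons] at j2 ⊢
      rcases hG.dist_eq_dist_add_one_of_adj o (ad a (b :: w)) with k | k
      · have := par_unique hG (ad a (b :: w)).symm (ad b w) k (by omega)
        rw [a1, ← a2 b w] at this
        exact absurd ((ψ (b :: w)).2.injective (Subtype.ext this)) c.rel
      · omega
  have inj : ∀ l l' : List (Fin d), l.IsChain (· ≠ ·) → l'.IsChain (· ≠ ·) → (ψ l).1 = (ψ l').1 →
      l = l' := by
    intro l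
    induction l with
    | nil =>
      intro l' c c' e
      have := di l' c'
      rw [← e, di _ c] at this
      exact (List.length_eq_zero_iff.1 this.symm).symm
    | cons a w ih =>
      intro l' c c' e
      have k := di l' c'
      rw [← e, di _ c] at k
      obtain _ | ⟨b, w'⟩ := l'
      · simp at k
      obtain rfl := ih w' c.tail c'.tail (par_unique hG (o := o) (ad a w) (e ▸ ad b w')
        (by rw [di _ c, di w c.tail]; rfl) (by rw [e, di _ c', di w' c'.tail]; rfl))
      rw [a1, a1] at e
      rw [(ψ w).2.injective (Subtype.ext e)]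
  have sur : ∀ n v, G.dist o v = n → ∃ w : Word d, (ψ w.1).1 = v := by
    intro n
    induction n with
    | zero => exact fun v k => ⟨nil d, by
        rw [← (hG.connected.dist_eq_zero_iff).1 k]; exact congrArg Sigma.fst h0⟩
    | succ n ih =>
      intro v k
      obtain ⟨u, hu, e⟩ := par_exists hG (o := o) (v := v) (by rintro rfl; simp at k)
      obtain ⟨w, rfl⟩ := ih u (by omega)
      obtain ⟨a, ha⟩ := (ψ w.1).2.surjective ⟨v, hu⟩
      refine ⟨⟨a :: w.1, chain_cons fun n => ?_⟩, by rw [a1, ha]⟩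
      obtain ⟨w, c⟩ := w
      obtain _ | ⟨b, w⟩ := w
      · simp at n
      obtain rfl : b = a := by simpa using n
      have := a2 b w
      rw [ha] at this
      dsimp only at this e
      rw [this, di w c.tail, di _ c, List.length_cons] at e
      omega
  have back : ∀ x y : Word d, G.Adj (ψ x.1).1 (ψ y.1).1 →
      G.dist o (ψ y.1).1 = G.dist o (ψ x.1).1 + 1 → ∃ a, y.1 = a :: x.1 := by
    rintro x ⟨_ | ⟨a, w⟩, c⟩ e k
    · rw [di _ c] at k; simp at k
    · exact ⟨a, by
        rw [inj x.1 w x.2 c.tail (par_unique hG e (ad a w) k (by rw [di _ c, di w c.tail]; rfl))]⟩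
  refine ⟨RelIso.symm ⟨.ofBijective (fun w : Word d => (ψ w.1).1)
    ⟨fun x y e => Subtype.ext (inj _ _ x.2 y.2 e), fun v => sur _ v rfl⟩, fun {x y} => ?_⟩⟩
  rw [adj_iff]
  refine ⟨fun e => ?_, ?_⟩
  · exact (hG.dist_eq_dist_add_one_of_adj o e).symm.imp (back x y e) (back y x e.symm)
  · rintro (⟨a, e⟩ | ⟨a, e⟩)
    · show G.Adj (ψ x.1).1 (ψ y.1).1
      rw [e]; exact ad a _
    · show G.Adj (ψ x.1).1 (ψ y.1).1
      rw [e]; exact (ad a _).symm

end Vale.Agent.P161T11
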